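import Vale.Agent.P270G.Defs4
import Vale.Agent.P270F.Tg.Defs

/-!
# P270F, block MC: the main contradiction in dimension at most four (definitions, rows)
-/

open Set
open Vale.Agent.P272.K Vale.Agent.P285.H281.FD Vale.Agent.P281Z Vale.Agent.P280Z
open Vale.Agent.P277.HD (pull)
open Vale.Agent.P285N Vale.Agent.P285W.J Vale.Agent.P285W.Bs
open Vale.Agent.P285N.Tp (FLC)
open Vale.Agent.P285S.B2 (Zr Nu Nh SN)
open Vale.Agent.P285S.Mm (Sp)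
open Vale.Agent.P270G (Cw Fb ForP Dn Rf CORN)

namespace Vale.Agent.P270F.Mc

/-- **CR**: the nef dimension is the numerical dimension -/
def CR (d ν : ℕ) : Prop := ForP (d + 1) fun T _ _ _ A m N => FLC T → ∀ (L Λ : Bd A.Z.X)
  (α : T.H A.Z) (S : Set A.Z.X), Dn T A m N L Λ ν → ¬ Rf T A.Z (T.c1 A.Z L) ν α S

/-- **FYN**: there is no free null class -/
def FYN (d ν : ℕ) : Prop := ForP (d + 1) fun T _ _ _ A m N => FLC T → ∀ (L Λ : Bd A.Z.X)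
  (α : T.H A.Z) (S : Set A.Z.X), Dn T A m N L Λ ν → Rf T A.Z (T.c1 A.Z L) ν α S →
  ¬ Mg.Frm T A.Z (T.c1 A.Z L ^ ν * T.c1 A.Z Λ ^ (d - ν))

/-- **DUPN**: the log resolution of a section -/
def DUPN : Prop := ∀ d, ForP (d + 1) fun T _ ι _ A m N => ∀ (L Λ D : Bd A.Z.X)
  (s : D.ι → A.Z.X → ℂ) (ν : ℕ), ν ≤ d → Dn T A m N L Λ ν → IsLB (d + 1) D → IsSec (d + 1) D s →
  (∃ x, NZ D s x) → ∃ (κ' : Type) (_ : Fintype κ') (A' : Pr (d + 1) κ' ι) (m' : κ' → ℤ)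
    (π : A'.Z.X → A.Z.X) (S : Set A.Z.X) (k : ℕ), Modif (d + 1) π S ∧ 0 < k ∧
    Dn T A' m' N (pull π L) ((pull π Λ).pow k) ν ∧ ∀ y ∈ off A'.G, π y ∉ S ∧ NZ D s (π y)

/-- **ENDN** -/
def ENDN : Prop := ∀ d ≤ 3, ForP (d + 1) fun T κ _ _ A m N => FLC T → ∀ (Q Λ : Bd A.Z.X)
  (Φ : κ → ℕ) (ν : ℕ), Cw A m N → IsLB (d + 1) Q → Tp.Nf A.Z Q → Nu T A.Z (T.c1 A.Z Q) ν → 0 < ν →
  ν ≤ d → (∀ j, m j < 0 → Φ j ≠ 0) → Fb A.Z Λ → Xc.Rig A (fun j => -(Φ j : ℤ)) Λ Q →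
  (∀ (u : ℕ) (U : Mf u) (p : U.X → A.Z.X) (hp : HolM u (d + 1) p),
    Nh T A.Z (T.c1 A.Z Q) ν U hp → range p ⊆ Sp A Φ) → Tg.Nc T A.Z (T.c1 A.Z Q) → False

theorem corn_of (h2 : CR 3 2) (h3 : CR 3 3) : CORN 3 := by
  intro T hT κ ι _ A m N hF L Λ ν α S a b h
  obtain rfl | rfl : ν = 2 ∨ ν = 3 := by omega
  · exact h2 T hT κ ι A m N hF L Λ α S h
  · exact h3 T hT κ ι A m N hF L Λ α S h

end Vale.Agent.P270F.Mc
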