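import Vale.Agent.P270G.Defs5
import Vale.Agent.P270G.End
import Vale.Agent.P270F.Tk.Hdg
import Vale.Agent.P270F.Nh43
import Vale.Agent.P270G.Sk

/-!
# P270F, block MC: the assembly
-/

open scoped Manifold ContDiff Topology
open Set Filter Function
open Vale.Agent.P272.K Vale.Agent.P285.H281.FD Vale.Agent.P281Z Vale.Agent.P280Z
open Vale.Agent.P277.HD (pull)
open Vale.Agent.P285N Vale.Agent.P285W.J Vale.Agent.P285W.Bs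
open Vale.Agent.P285S.B2 (Zr Nu Nh SN NEG0 MDSN)
open Vale.Agent.P285S.Mm (Sp)
open Vale.Agent.P270G (Cw Fb ForP Dn Nz NUU NZU FBU DUN SNF ENN MACH dense_div)

noncomputable section

namespace Vale.Agent.P270F.Mc

theorem dm_up {T : CT} (hT : T.OK) (fbu : FBU) {n : ℕ} {Z Y : Mf n} {π : Y.X → Z.X} {S}
    (hπ : Modif n π S) (cY : Cp Y) {Λ : Bd Z.X} (h : Fb Z Λ) :
    Tk.Dm T Y (T.pull hπ.hol (T.c1 Z Λ)) := by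
  obtain ⟨k, -, fb⟩ := fbu n Z Y π S Λ cY.conn cY.prj hπ h
  obtain ⟨-, a, a1, a2⟩ := P270G.EndH.big hT cY.conn fb
  rw [hT.c1.pow _ _ _ (hπ.hol.lb h.lb), hT.c1.pull hπ.hol Λ h.lb] at a2
  exact ⟨a, a1, le_of_ef hT (Nat.cast_nonneg k) a2⟩

theorem dn_z {T : CT} {d ν : ℕ} {κ ι : Type} [Fintype κ] {A : Pr (d + 1) κ ι} {m : κ → ℤ} {N : ℕ}
    {L Λ : Bd A.Z.X} (hT : T.OK) (h : Dn T A m N L Λ ν) (hν : ν ≤ d) :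
    Mn T A.Z (T.c1 A.Z L ^ ν * T.c1 A.Z Λ ^ (d - ν)) ∧
      T.Dg A.Z d (T.c1 A.Z L ^ ν * T.c1 A.Z Λ ^ (d - ν)) :=
  ⟨((nf_of hT h.cw.ok.prj h.lb h.nef).mn.pow ν).mul
    ((bf_nf hT ⟨Λ, h.fb.lb, h.fb.bpf, rfl⟩).mn.pow _), by
    simpa only [Nat.add_sub_cancel' hν] using dg_mul hT (dg_pow hT (hT.c1.deg A.Z L) ν)
      (dg_pow hT (hT.c1.deg A.Z Λ) (d - ν))⟩

theorem mach_of (dup : DUN) (snf : SNF) (md : MDSN) (mm1 : Mg.MM1) (mm2 : Tg.MM2N) (en : ENN)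
    (nuu : NUU) (nzu : NZU) (fbu : FBU) : MACH := by
  intro d hd T hT κ ι _ A m N hF L Λ ν n0 hν h
  have cA : Cp A.Z := ⟨h.cw.ok.conn, h.cw.ok.prj⟩
  have := cA.conn
  by_contra fr
  refine fr (snf d hd T hT κ ι A m N L Λ ν n0 hν h (md T hT _ A.Z _ ν cA (by omega)
    (nf_of hT cA.prj h.lb h.nef) fun D s hD hs hs' => by_contra fun hn => ?_))
  obtain ⟨κ₁, _, A₁, m₁, π₁, S₁, Λ₁, hπ₁, -, h₁, ho, -, -, dn⟩ :=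
    dup d T hT κ ι A m N L Λ D s ν hν h hD hs hs'.nonempty
  have c₁ : Cp A₁.Z := ⟨h₁.cw.ok.conn, h₁.cw.ok.prj⟩
  have n₁ := nf_of hT c₁.prj h₁.lb h₁.nef
  have g₁ := bf_nf hT ⟨_, h₁.fb.lb, h₁.fb.bpf, rfl⟩
  have e₁ := hT.c1.pull hπ₁.hol _ h.lb
  obtain ⟨z1, z2⟩ := dn_z hT h₁ hν
  obtain ⟨C, hC⟩ := (mm1 d hd T hT κ₁ ι A₁ m₁ N _ h₁.cw z1 z2 h₁.neg).resolve_right
    fun k => fr (dn k)
  have l₀ := hC.md.hol.lb h₁.lb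
  have f₀ := P285S.Tp.nf_comp hC.md.hol c₁.prj h₁.lb h₁.nef
  have e₀ := hT.c1.pull hC.md.hol _ h₁.lb
  have n₀ := nf_of hT hC.cw.ok.prj l₀ f₀
  obtain ⟨C', hC', δ, D', s', d0, d1, d2, d3, d4, nc⟩ := mm2 (d + 1) (by omega) T hT _ _ C.B C.m C.N
    _ C.Λ C.Q C.Φ hC.cw l₀ f₀ hC.neg hC.fb hC.lbQ hC.rig
  have c' : Cp C'.B.Z := ⟨hC'.cw.ok.conn, hC'.cw.ok.prj⟩
  have := c'.conn
  have n' := nf_pull hT hC'.md.hol n₀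
  have nq := nf_of hT c'.prj hC'.lbQ hC'.nfQ
  have d5 : Dense {y | NZ D' s' y} := (snc_dense_off hC'.cw.ok.snc).mono
    fun y (a : y ∈ off C'.B.G) => d3 y fun ⟨l, _, b⟩ => a l b
  have z₀ : Sp C.B C.Φ ⊆ Nz T C.B (T.pull hC.md.hol _) := fun y ⟨j, j0, hj⟩ =>
    ⟨j, fun O σ hO => nzu d T hT κ₁ ι A₁ m₁ N _ C.π _ hC.md _ O σ h₁.cw.ok hC.cw.ok.prj z1 z2 hO.lb
      hO.sec (dense_div hO) fun y a => .inr ((hC.sp y).2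
        ⟨j, j0, by_contra fun b => a fun c hc e => b ((hO.leq c y hc).mem.1 e)⟩), hj⟩
  have z' := nzu d T hT _ _ C.B C.m C.N _ C'.π _ hC'.md _ D' s' hC.cw.ok c'.prj
    (mn_pull hT hC.md.hol z1) (dg_pull hT hC.md.hol z2) d1 d2 d5 fun y a =>
      .inr (z₀ ((hC'.sp y).2 (by_contra fun b => a (d3 y b))))
  have hw := hC.md.comp rem hC'.md
  have dm := dm_up hT fbu hw c' h₁.fb
  rw [hT.rg.pull_comp hC'.md.hol hC.md.hol hw.hol fun _ => rfl] at dm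
  simp only [map_mul (T.pull hC.md.hol), map_pow (T.pull hC.md.hol), map_mul (T.pull hC'.md.hol),
    map_pow (T.pull hC'.md.hol)] at z'
  rw [← e₀] at z'
  refine en d hd T hT _ _ C'.B C'.m C'.N hF C'.Q C'.Λ C'.Φ ν n0 hν hC'.cw hC'.lbQ hC'.nfQ ?_ hC'.neg
    hC'.fb hC'.rig (fun u U p hp hN => ?_) nc
  · rw [d4]
    refine Tk.nuq hT c' (Tk.Nq.pull hT ⟨n₀, _, l₀, rfl⟩ _)
      (nf_pull hT _ (nf_pull hT _ g₁)) dm ?_ (by omega) d0 ⟨D', s', d1, d2, d5, rfl⟩ z'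
      (d4 ▸ ⟨nq, _, hC'.lbQ, rfl⟩)
    refine nuu.nu T hT _ ν _ _ _ _ hC'.md _ ⟨hC.cw.ok.conn, hC.cw.ok.prj⟩ c'.prj n₀ ?_
    rw [e₀]
    exact nuu.nu T hT _ ν _ _ _ _ hC.md _ c₁ hC.cw.ok.prj n₁ h₁.nu
  rintro _ ⟨x, rfl⟩
  by_contra k0
  rw [d4] at hN nq
  have k1 : C'.π (p x) ∉ Sp C.B C.Φ := fun a => k0 ((hC'.sp _).1 a)
  have k2 : C.π (C'.π (p x)) ∉ _ := fun a => k1 ((hC.sp _).1 a)
  have b1 := nh_up hT hC'.md (nh_two hT n' d0 d1 d2 nq hN (d3 _ k0)) k1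
  rw [e₀] at b1
  have b2 := nh_up hT hC.md b1 k2
  obtain rfl : d = u := by have := hN.dim; omega
  refine k2 (nh_one hT h₁.cw.ok h₁.cw.conn b2 ?_ (g₁.mn.pow _) ⟨x, rfl⟩)
  rintro _ ⟨y, rfl⟩ a
  have b3 := (congrArg (fun t => Nh T A₁.Z t ν U _) e₁).mp b2
  exact hn ⟨d, U, _, _, nh_up hT hπ₁ b3 (ho _ a).1, y, (ho _ a).2⟩

end Vale.Agent.P270F.Mc
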